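/-!
# Row 81 (S0108): a smooth volume-preserving diffeomorphism of `T³` with simple Lebesgue spectrum

Blueprint of the proof (statements and recipes: `R81/Defs.lean`; assembly: `R81/Glue.lean`).

**Approximation by conjugation.**  `T = lim H_n S_n H_n⁻¹`, `G = lim g_n ∘ H_n⁻¹`.  The model is
`S (X,Y,Z) = (X + dbar + σ E'(Y), Y + b, Z + γ)` with `b ∈ ℤ`, `γ ∈ ℚ`, `E'(y) = y` on
`I = [α, 1-α]`.  On the fibre `Y = y ∈ I` the character `e(kX + jZ)` is an eigenfunction with
frequency `freq (k,j) y = k (dbar + σ y) + j γ`, which sweeps an interval of length `|k|σ(1-2α)`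
with constant speed.  If these intervals are disjoint mod 1 for `m ∈ G` and `|c m|² = |k|σ`, the
vector `g = ∑ c m • atom m` has as spectral measure Lebesgue measure restricted to their union, of
mass `1 - d` (`SpecStmt`), and every `∑ a m c m atom m` is `p(U) g` with `sup |p| ≤ ∑|a| + 1`
(`ApproxStmt`).

**The step** (`StepStmt`).  The conjugacy is
`h (x₀,x₁,x₂) = (x₂ + lam x₀ + W(Y, x₀), Y, x₀)`, `Y = x₁ + M Q x₀`, `W(Y,Z) = σE(Y)/u + V(Y,QZ)`,
where `V` is a smoothing of the step function `ψ(⌊Y⌋ - ⌊Y - MW⌋)`.  The new model has
`dbar' = γ + u/(MQ)`, `σ' = u/(lam M)`, `γ' = dbar + c - lam dbar'`; `h S' h⁻¹ → S` in `C^r` as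
`(u, c, 1/lam) → 0` (`ConjCloseStmt`).  An atom of mode `(k,j)` composed with `h` splits into atoms
of the descendant modes `(k lam + j + Qkν, k)` with weights `dft ψ k (kν) * phiHat` (`InnerStmt`);
by stationary phase and the gadget (`GadgetStmt`, `EnergyStmt`) these weights are nearly flat for the
modes of `G` (so that `g ∘ h ≈ g'`), and sparse for the *new* modes `N`.  The frequency interval of
the descendant `ν` of `m` lies in a cell of length `|k|u/M` inside the old interval of `m`; the
sparse descendants of `N` collide with few other cells, and after averaging over a shift `s`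
(`SelectStmt`) the colliding cells carry little energy and are dropped (`GeomStmt`).  The rest of
the circle is filled with tiny intervals of modes `±(1,j)` (`FillStmt`), so that the new defect
`d'` is as small as we like *after* the bound `B` on the coefficients is fixed: `d' B² ≤ ε`.

**Macro step** (`MacroStmt`).  A character composed with `H` is approximated by a trigonometric
polynomial; two plain steps (`N = ∅`) bring all its modes into `G'' ∪ P''` with `P''` satisfying the
non-divisibility conditions, a third step absorbs `N = P''`.  **Limit** (`IterStmt`): von Neumann's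
inequality and `B √d' → 0` keep the approximations `ch ≈ p(U) G` in the limit.
-/
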